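import Vale.Agent.Lib.P090.Cutoff

/-! P090: the bounded approximation constant of the free space of a metric space is at most
the supremum of the constants of its closed balls around the base point. -/

namespace Vale.Agent.Results.P090.BallReduction

open Vale.Agent.Lib.P090

/-- Let `M` be a metric space with base point `o` and let `lam` be a real number. If for
every `r ≥ 0` the Lipschitz-free space of the closed ball of radius `r` around `o` (with the
induced metric and base point `o`) has the `lam`-bounded approximation property, then the
Lipschitz-free space of `M` has the `lam`-bounded approximation property, with the same
constant. -/
theorem result (M : Type*) [MetricSpace M] (o : M) (lam : ℝ)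
    (h : ∀ (r : ℝ) (hr : 0 ≤ r),
      HasBAP lam (LipFree (Metric.closedBall o r) ⟨o, Metric.mem_closedBall_self hr⟩)) :
    HasBAP lam (LipFree M o) :=
  HasBAP.of_balls o lam h

end Vale.Agent.Results.P090.BallReduction
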