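import Vale.Agent.Lib.P090.Sigma

/-! P090: Kalton's problem is equivalent to a uniform bound on the bounded approximation
constants of the free spaces of bounded uniformly discrete metric spaces. -/

namespace Vale.Agent.Results.P090.KaltonEquiv

open Vale.Agent.Lib.P090

universe u

/-- (1) The free space of every uniformly discrete metric space has the bounded approximation
property (with a constant depending on the space) if and only if there is one constant `lam`
such that the free space of every bounded uniformly discrete metric space has the `lam`-BAP.
(2) For each `lam`: if the free space of every bounded uniformly discrete metric space has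
the `lam`-BAP, then the free space of every uniformly discrete metric space has the
`lam`-BAP. -/
theorem result :
    ((∀ (M : Type u) [MetricSpace M] (o : M), UniformlyDiscrete M →
        ∃ lam : ℝ, HasBAP lam (LipFree M o)) ↔
      ∃ lam : ℝ, ∀ (M : Type u) [MetricSpace M] (o : M), UniformlyDiscrete M →
        (∃ D : ℝ, ∀ x y : M, dist x y ≤ D) → HasBAP lam (LipFree M o)) ∧
    (∀ lam : ℝ, (∀ (M : Type u) [MetricSpace M] (o : M), UniformlyDiscrete M →
        (∃ D : ℝ, ∀ x y : M, dist x y ≤ D) → HasBAP lam (LipFree M o)) →
      ∀ (M : Type u) [MetricSpace M] (o : M), UniformlyDiscrete M →
        HasBAP lam (LipFree M o)) :=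
  kalton_equiv

end Vale.Agent.Results.P090.KaltonEquiv
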