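import Vale.Agent.Lib.P090.Radial

/-! P090: the bounded approximation property, with explicit constants, for two classes of
uniformly discrete metric spaces: spaces in which every point has only finitely many points
that are `lam` times closer to it than the base point, and spaces with the finite cone-point
property. -/

namespace Vale.Agent.Results.P090.NearFinite

open Vale.Agent.Lib.P090

/-- Let `M` be a metric space with base point `o` in which distinct points are at distance at
least `θ > 0`.
(1) If `lam ≥ 1` and every point `x` of `M` has only finitely many points `y` with
`lam * dist x y < dist x o`, then the Lipschitz-free space of `M` has the `lam`-bounded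
approximation property. For `lam = 1`: if every point has only finitely many points strictly
closer to it than the base point, the free space has the metric approximation property.
(2) If `K ≥ 1` and every finite subset `A` of `M` admits a point `c` of `M` within distance
`K * θ` of every point of `A`, then the Lipschitz-free space of `M` has the `K`-bounded
approximation property. -/
theorem result (M : Type*) [MetricSpace M] (o : M) (θ : ℝ) (hθ : 0 < θ)
    (hsep : ∀ x y : M, x ≠ y → θ ≤ dist x y) :
    (∀ lam : ℝ, 1 ≤ lam → (∀ x : M, {y : M | lam * dist x y < dist x o}.Finite) →
      HasBAP lam (LipFree M o)) ∧
    (∀ K : ℝ, 1 ≤ K → (∀ A : Finset M, ∃ c : M, ∀ a ∈ A, dist c a ≤ K * θ) →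
      HasBAP K (LipFree M o)) :=
  ⟨fun _ hlam hfin => HasBAP.of_near_finite o hθ hlam hsep hfin,
    fun _ hK hcone => HasBAP.of_finite_cone o hK hsep hcone⟩

end Vale.Agent.Results.P090.NearFinite
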