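import Vale.Agent.Lib.P090.Sqrt

/-! P090: a square-root bound, in terms of the ratio of radius to separation, for the bounded
approximation constant of the free space of a bounded uniformly discrete metric space. -/

namespace Vale.Agent.Results.P090.SqrtBound

open Vale.Agent.Lib.P090

/-- Let `M` be a metric space in which distinct points are at distance at least `θ > 0`.
(1) If every point of `M` is within distance `R` of the base point `o`, then the
Lipschitz-free space of `M` has the `(1 + √(2 R / θ))`-bounded approximation property.
(2) More generally, the same holds if every finite subset `A` of `M` admits a point `c` of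
`M` within distance `R` of every point of `A`. -/
theorem result (M : Type*) [MetricSpace M] (o : M) (θ R : ℝ) (hθ : 0 < θ)
    (hsep : ∀ x y : M, x ≠ y → θ ≤ dist x y) :
    ((∀ x : M, dist x o ≤ R) → HasBAP (1 + Real.sqrt (2 * R / θ)) (LipFree M o)) ∧
    ((∀ A : Finset M, ∃ c : M, ∀ a ∈ A, dist c a ≤ R) →
      HasBAP (1 + Real.sqrt (2 * R / θ)) (LipFree M o)) := by
  have key : (∀ A : Finset M, ∃ c : M, ∀ a ∈ A, dist c a ≤ R) →
      HasBAP (1 + Real.sqrt (2 * R / θ)) (LipFree M o) := by
    intro hcone
    have hR : 0 ≤ R := by
      obtain ⟨c, hc⟩ := hcone {o}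
      exact le_trans dist_nonneg (hc o (Finset.mem_singleton_self o))
    exact HasBAP.of_cone_sqrt o hθ hR hsep hcone
  refine ⟨fun hb => key (fun A => ⟨o, fun a _ => ?_⟩), key⟩
  rw [dist_comm]
  exact hb a

end Vale.Agent.Results.P090.SqrtBound
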